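import Vale.Agent.P286E.Defs
import Vale.Agent.P286E.Eqv

/-!
# Existence of the expansion of `y`; the categories are not zero
-/

namespace Vale.Agent.P286EZ

open CategoryTheory Vale.Agent.P286 Vale.Agent.P286.H353 Vale.Agent.P286.St Vale.Agent.P286E
open Vale.Agent.P286.H847 (GD)

noncomputable section

universe u v u₁ v₁

theorem exists_sqrt (g : PowerSeries ℂ) (hg : PowerSeries.constantCoeff g = 0) :
    ∃ s : PowerSeries ℂ, s ^ 2 = 1 + g ∧ PowerSeries.constantCoeff s = 1 := by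
  have h := PowerSeries.HasSubst.of_constantCoeff_zero' hg
  obtain ⟨s, hs⟩ : ∃ s : PowerSeries ℂ, s ^ 2 = 1 + g := by
    refine ⟨PowerSeries.substAlgHom (R := ℂ) h (PowerSeries.binomialSeries ℂ (2⁻¹ : ℂ)), ?_⟩
    rw [← map_pow, pow_two, ← PowerSeries.binomialSeries_add,
      show (2⁻¹ + 2⁻¹ : ℂ) = ((1 : ℕ) : ℂ) by norm_num, PowerSeries.binomialSeries_nat, pow_one,
      map_add, map_one, PowerSeries.substAlgHom_X]
  have h1 : PowerSeries.constantCoeff s ^ 2 = 1 := by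
    rw [← map_pow, hs, map_add, map_one, hg, add_zero]
  refine ⟨PowerSeries.C (PowerSeries.constantCoeff s) * s, ?_, ?_⟩
  · rw [mul_pow, ← map_pow, h1, map_one, one_mul, hs]
  · rw [map_mul, PowerSeries.constantCoeff_C, ← pow_two, h1]

theorem exe (a b : ℂ) (h : 4 * a ^ 3 + 27 * b ^ 2 ≠ 0) : ∃ E : Ell, E.a = a ∧ E.b = b := by
  obtain ⟨s, h1, h2⟩ := exists_sqrt (PowerSeries.C a * PowerSeries.X ^ 4 +
    PowerSeries.C b * PowerSeries.X ^ 6) (by simp)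
  refine ⟨⟨a, b, HahnSeries.single (-3) 1 * HahnSeries.ofPowerSeries ℤ ℂ s, h, ?_, ?_⟩, rfl, rfl⟩
  · rw [mul_pow, ← map_pow (HahnSeries.ofPowerSeries ℤ ℂ), h1]
    simp only [map_add, map_mul, map_one, map_pow, HahnSeries.ofPowerSeries_C,
      HahnSeries.ofPowerSeries_X, HahnSeries.single_pow, xs, mul_add, ← HahnSeries.C_mul_eq_smul,
      mul_left_comm _ (HahnSeries.C _), mul_one, one_pow, add_assoc]
    rw [HahnSeries.single_mul_single, HahnSeries.single_mul_single, mul_one]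
    exact congrArg₂ (· + ·) rfl (congrArg₂ (· + ·) rfl (mul_one _))
  · have := HahnSeries.coeff_single_mul_add (r := (1 : ℂ)) (x := HahnSeries.ofPowerSeries ℤ ℂ s)
      (a := ((0 : ℕ) : ℤ)) (b := -3)
    rw [HahnSeries.ofPowerSeries_apply_coeff, one_mul, PowerSeries.coeff_zero_eq_constantCoeff,
      h2] at this
    exact this

/-- Two parallel morphisms have different images in the localization. -/
def Nz {C : Type u} [Category.{v} C] (W : MorphismProperty C) : Prop :=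
  ∃ (X Y : C) (f g : X ⟶ Y), W.Q.map f ≠ W.Q.map g

section
variable {C : Type u} [Category.{v} C] {D : Type u₁} [Category.{v₁} D] {W : MorphismProperty C}

theorem map_eq_of (H : C ⥤ D) (hH : W.IsInvertedBy H) {X Y : C} {f g : X ⟶ Y}
    (h : W.Q.map f = W.Q.map g) : H.map f = H.map g := by
  rw [← Localization.Construction.fac H hH]
  exact congrArg (fun w => (Localization.Construction.lift H hH).map w) h

theorem Nz.retract {W' : MorphismProperty D} (F : C ⥤ D) (G : D ⥤ C)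
    (hG : ∀ ⦃X Y : D⦄ (u : X ⟶ Y), W' u → W (G.map u)) (z : Zig W (F ⋙ G) (𝟭 C)) (h : Nz W) :
    Nz W' := by
  obtain ⟨X, Y, f, g, h⟩ := h
  refine ⟨_, _, F.map f, F.map g, fun e => h ?_⟩
  have h1 := map_eq_of (G ⋙ W.Q) (fun _ _ u hu => Localization.inverts W.Q W _ (hG u hu)) e
  obtain ⟨i⟩ := z.iso
  have h2 := i.hom.naturality f
  have h3 := i.hom.naturality g
  exact (cancel_epi (i.hom.app X)).1 (h2.symm.trans ((congrArg (· ≫ i.hom.app Y) h1).trans h3))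

end

theorem nz_eqv {P : WD.{u, v}} {Q : WD.{u₁, v₁}} (h : EQV P Q) (hQ : Nz Q.W) : Nz P.W := by
  obtain ⟨X, Y, h⟩ := h
  exact hQ.retract Y.z0 X.z0 h.pF h.co

theorem isNz_of {T : TSite} (h : Nz (WD.st T).W) : H96.IsNz T := by
  obtain ⟨X, Y, h'⟩ := EQV.refl (WD.st T)
  have h1 := inv_of_z h'
  obtain ⟨_, _, f, g, h2⟩ := h.retract _ _ h1.pF h1.co
  exact fun ht => h2 ((ht _ _).elim _ _)

theorem nz_prod {P : WD.{u, v}} {Q : WD.{u₁, v₁}} (X : Z0 P.C) (h : Nz Q.W) :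
    Nz (P.prod Q).W :=
  h.retract (zpair ((Functor.const _).obj X) (𝟭 _)) (dsnd P.C Q.C).z0 (fun _ _ _ hu => hu.2)
    (Relation.EqvGen.refl _)

/-- cohomologous cocycles of degree `0` -/
def rel (M : GD) : Setoid {x : M.V // x ∈ M.gr 0 ∧ M.d x = 0} where
  r x y := ∃ z ∈ M.gr (0 - 1), M.d z = x.1 - y.1
  iseqv := ⟨fun x => ⟨0, zero_mem _, by simp⟩,
    fun ⟨z, h1, h2⟩ => ⟨-z, neg_mem h1, by rw [map_neg, h2, neg_sub]⟩,
    fun ⟨z, h1, h2⟩ ⟨w, h3, h4⟩ => ⟨z + w, add_mem h1 h3, by rw [map_add, h2, h4]; abel⟩⟩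

/-- the map on cohomology -/
def hmap {M N : GD} (u : GD.Hom M N) : Quotient (rel M) → Quotient (rel N) :=
  Quotient.map (fun x => ⟨u.f x.1, u.deg _ _ x.2.1, by rw [← u.comm, x.2.2, map_zero]⟩)
    fun _ _ ⟨z, h1, h2⟩ => ⟨u.f z, u.deg _ _ h1, by rw [← u.comm, h2, map_sub]⟩

theorem hmap_bij {M N : GD} {u : GD.Hom M N} (h : GD.Qis u) : Function.Bijective (hmap u) := by
  constructor
  · rintro ⟨x⟩ ⟨y⟩ e
    obtain ⟨z, h1, h2⟩ := Quotient.exact e
    exact Quotient.sound ((h 0).1 _ (sub_mem x.2.1 y.2.1) (by rw [map_sub, x.2.2, y.2.2, sub_zero])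
      ⟨z, h1, by rw [h2, map_sub]⟩)
  · rintro ⟨y⟩
    obtain ⟨x, h1, h2, z, h3, h4⟩ := (h 0).2 y.1 y.2.1 y.2.2
    exact ⟨Quotient.mk _ ⟨x, h1, h2⟩, Eq.symm (Quotient.sound (s := rel N) ⟨z, h3, h4⟩)⟩

/-- the cohomology in degree `0` -/
def H0 : Z0 (H274.LMod 0) ⥤ Type where
  obj N := Quotient (rel (H274.LMod.ol N).toGD)
  map u := ↾(hmap (H274.LMod.toH u).toHom)
  map_id _ := ConcreteCategory.hom_ext _ _ (by rintro ⟨x⟩; rfl)
  map_comp _ _ := ConcreteCategory.hom_ext _ _ (by rintro ⟨x⟩; rfl)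

/-- the field with the zero differential -/
def one : H64.LM 0 where
  V := ℂ
  d := 0
  dd _ := rfl
  gr _ := ⊤
  dgr _ _ _ := trivial
  e i := i.elim0
  e_e i := i.elim0
  e_d i := i.elim0
  e_gr i := i.elim0

theorem nz_vec : Nz WD.vec.W := by
  refine ⟨H274.LMod.lo one, H274.LMod.lo one, 𝟙 _,
    zmk (C := H274.LMod 0) 0 ((H274.Co.dif_zero_iff _).2 fun _ => rfl), fun h => ?_⟩
  have h1 := map_eq_of H0 (fun _ _ u hu => (isIso_iff_bijective _).2 (hmap_bij hu)) h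
  obtain ⟨z, -, h2⟩ := Quotient.exact (ConcreteCategory.congr_hom h1
    (Quotient.mk (rel one.toGD) ⟨(1 : ℂ), trivial, rfl⟩))
  have h3 : (0 : ℂ) = 1 - 0 := h2
  simp at h3

theorem nz_v4 : Nz WD.v4.W :=
  nz_prod (zo (C := (WD.vec.prod WD.vec).C) (one, one)) (nz_prod (H274.LMod.lo one) nz_vec)

/-- the zero module -/
def zeroTD (T : TSite) : TD T :=
  ⟨(Functor.const (Pa T)).obj (ModuleCat.of ℂ PUnit),
    ⟨fun _ => ⟨fun _ _ => rfl, fun _ _ _ => rfl, fun _ _ _ => rfl, fun _ _ _ => rfl,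
      fun _ _ _ => rfl, fun _ _ _ => rfl, fun _ _ _ => rfl⟩,
      fun _ _ _ => ⟨fun _ _ => rfl, fun _ _ _ _ _ _ => rfl⟩, fun _ _ => rfl,
      fun _ _ _ _ _ _ => rfl, fun _ _ _ _ => rfl⟩⟩

/-- the zero complex -/
def zeroCx (T : TSite) : Cx T :=
  (⟨fun _ => zeroTD T, fun _ _ => 0, fun _ _ _ => rfl, fun _ _ _ _ _ => Limits.zero_comp⟩ :
    CochainComplex (TD T) ℤ)

theorem zero_cart (T : TSite) : (zeroCx T).Cart := fun X => by
  refine ⟨⟨fun _ => PUnit, fun _ _ => 0, fun _ _ _ => rfl⟩, fun _ _ => PUnit.unit,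
    ⟨fun _ => inferInstanceAs (Module.Flat _ PUnit), fun _ _ _ => rfl, fun _ _ _ => rfl,
      fun _ _ _ => rfl, fun _ _ _ _ _ => ⟨fun x _ _ => ⟨x, rfl⟩, fun y _ => ⟨y, rfl, y, rfl⟩⟩⟩,
    fun Y φ => ⟨fun _ _ => PUnit.unit, fun _ _ _ => rfl, fun _ _ _ => rfl, fun i j k _ _ => ?_⟩⟩
  let _ : Module (T.R X) (T.R Y) := Module.compHom _ (T.f φ).r
  have hs : Subsingleton (TensorProduct (T.R X) (T.R Y) PUnit) := inferInstance
  exact ⟨fun x _ _ => ⟨x, hs.elim _ _⟩, fun y _ => ⟨0, hs.elim _ _, y, rfl⟩⟩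

theorem nz_of_v4 {T T' : TSite} (h : EQV (WD.st T) ((WD.st T').prod WD.v4)) : H96.IsNz T :=
  isNz_of (nz_eqv h (nz_prod (cz ⟨zeroCx T', zero_cart T'⟩) nz_v4))

end

end Vale.Agent.P286EZ
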