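import Vale.Agent.P286E.QD
import Vale.Agent.P286EZ.Nz

/-!
# The statement `QGL` from the three equivalences
-/

namespace Vale.Agent.P286EZ

open Polynomial Vale.Agent.P286 Vale.Agent.P286E

theorem exists_rt (E : Ell) : Nonempty (Rt E) := by
  have h : E.f.degree = 3 := by
    rw [Ell.f]
    compute_degree!
  obtain ⟨z, hz⟩ := IsAlgClosed.exists_root E.f (by rw [h]; decide)
  exact ⟨⟨z, by simpa [Ell.f] using hz⟩⟩

theorem irr_ne {c : ℂ} (hc : ∀ q : ℚ, c ≠ (q : ℂ)) : c ≠ 0 := fun h => hc 0 (by simpa using h)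

theorem irr_inv {c : ℂ} (hc : ∀ q : ℚ, c ≠ (q : ℂ)) (q : ℚ) : -1 / c ≠ (q : ℂ) := fun h =>
  hc (-1 / q) (by
    have h0 := irr_ne hc
    rw [Rat.cast_div, ← h]
    field_simp
    simp)

theorem irr_sub {c : ℂ} (hc : ∀ q : ℚ, c ≠ (q : ℂ)) (q : ℚ) : 2 - c ≠ (q : ℂ) := fun h =>
  hc (2 - q) (by push_cast; linear_combination -h)

theorem main (h1 : GEO1) (h2 : GEO2) (h3 : MID) (E : Ell) (c : ℂ) (hc : ∀ q : ℚ, c ≠ (q : ℂ)) :
    EQV (WD.st (DE E SL2 c)) (WD.st (DE E SO3 (-1 / c))) := by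
  obtain ⟨e⟩ := exists_rt E
  have h0 := irr_ne hc
  exact ((h1 E e c hc).trans (h3 E e (2 - c) ((2 - -1 / c) / 4) (-4) (-1) (irr_sub hc)
    (by push_cast; field_simp; ring))).trans (h2 E e _ (irr_inv hc)).symm

theorem top (h1 : GEO1) (h2 : GEO2) (h3 : MID) : QGL := by
  refine ⟨exe, fun E c hc => ?_⟩
  obtain ⟨e⟩ := exists_rt E
  have h := (main h1 h2 h3 E _ (irr_inv hc)).symm
  rw [show -1 / (-1 / c) = c by have := irr_ne hc; field_simp] at h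
  exact ⟨(main h1 h2 h3 E c hc).dgEq, h.dgEq,
    nz_of_v4 ((main h1 h2 h3 E c hc).trans (h2 E e _ (irr_inv hc))), nz_of_v4 (h2 E e c hc)⟩

end Vale.Agent.P286EZ
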